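import Mathlib
import Vale.Agent.P260.H493.Defs

/-!
# P260 climb, M3: walls of a character in the Cayley graph

`K` = connected component (in the Cayley graph) of the band `{|θ - t| ≤ R}`; the half-space of `K`.
-/

namespace Vale.Agent.P260.H66

open Vale.Agent.P260.H493

variable {Γ : Type} [Group Γ] {S : Finset Γ} {θ : Γ → ℝ}

/-! ### Connections -/

theorem conn_refl {Q : Γ → Prop} {x : Γ} (h : Q x) : Conn S Q x x := ⟨.refl, h⟩

theorem conn_left {Q : Γ → Prop} {x y : Γ} (h : Conn S Q x y) : Q x := h.2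

theorem conn_right {Q : Γ → Prop} {x y : Γ} (h : Conn S Q x y) : Q y := by
  obtain ⟨h1, h2⟩ := h
  induction h1 with
  | refl => exact h2
  | tail _ h3 _ => exact h3.2

theorem conn_step {Q : Γ → Prop} {x y s : Γ} (h : Conn S Q x y) (hs : s ∈ S) (hQ : Q (y * s)) :
    Conn S Q x (y * s) := ⟨h.1.tail ⟨⟨s, hs, rfl⟩, hQ⟩, h.2⟩

theorem conn_trans {Q : Γ → Prop} {x y z : Γ} (h : Conn S Q x y) (h' : Conn S Q y z) :
    Conn S Q x z := ⟨h.1.trans h'.1, h.2⟩

theorem conn_symm (hS : GenSet S) {Q : Γ → Prop} {x y : Γ} (h : Conn S Q x y) : Conn S Q y x := by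
  obtain ⟨h1, h2⟩ := h
  induction h1 with
  | refl => exact conn_refl h2
  | @tail b c h3 h4 ih =>
    obtain ⟨⟨s, hs, rfl⟩, hc⟩ := h4
    have hb : Q b := conn_right (S := S) ⟨h3, h2⟩
    have h5 : Conn S Q (b * s) b := by
      have := conn_step (conn_refl (S := S) hc) (hS.inv s hs) (by rwa [mul_inv_cancel_right])
      rwa [mul_inv_cancel_right] at this
    exact conn_trans h5 ih

theorem conn_mono {Q Q' : Γ → Prop} (hQ : ∀ x, Q x → Q' x) {x y : Γ} (h : Conn S Q x y) :
    Conn S Q' x y := by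
  obtain ⟨h1, h2⟩ := h
  induction h1 with
  | refl => exact conn_refl (hQ _ h2)
  | @tail b c _ h4 ih =>
    obtain ⟨⟨s, hs, rfl⟩, hc⟩ := h4
    exact conn_step ih hs (hQ _ hc)

theorem conn_translate {Q : Γ → Prop} (g : Γ) {x y : Γ} (h : Conn S Q x y) :
    Conn S (fun z => Q (g⁻¹ * z)) (g * x) (g * y) := by
  obtain ⟨h1, h2⟩ := h
  induction h1 with
  | refl => exact conn_refl (by simpa using h2)
  | @tail b c _ h4 ih =>
    obtain ⟨⟨s, hs, rfl⟩, hc⟩ := h4
    rw [← mul_assoc]
    exact conn_step ih hs (by simpa [mul_assoc] using hc)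

/-- induction along words -/
theorem gen_ind (hS : GenSet S) {P : Γ → Prop} (p : Γ) (h0 : P p)
    (hs : ∀ x, P x → ∀ s ∈ S, P (x * s)) (y : Γ) : P y := by
  have key : ∀ g ∈ Subgroup.closure (S : Set Γ), ∀ x, (P x → P (x * g)) ∧ (P x → P (x * g⁻¹)) := by
    intro g hg
    induction hg using Subgroup.closure_induction with
    | mem s h => exact fun x => ⟨fun hx => hs x hx s h, fun hx => hs x hx _ (hS.inv s h)⟩
    | one => exact fun x => by simp
    | mul a b _ _ iha ihb =>
      intro x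
      refine ⟨fun hx => ?_, fun hx => ?_⟩
      · rw [← mul_assoc]; exact (ihb _).1 ((iha x).1 hx)
      · rw [mul_inv_rev, ← mul_assoc]; exact (iha _).2 ((ihb x).2 hx)
    | inv a _ iha => exact fun x => ⟨(iha x).2, by rw [inv_inv]; exact (iha x).1⟩
  have h1 := (key (p⁻¹ * y) (by rw [hS.gen]; trivial) p).1 h0
  rwa [mul_inv_cancel_left] at h1

theorem exists_word (hS : GenSet S) (x y : Γ) : ∃ w : List Γ, (∀ s ∈ w, s ∈ S) ∧ x * w.prod = y := by
  refine gen_ind hS (P := fun y => ∃ w : List Γ, (∀ s ∈ w, s ∈ S) ∧ x * w.prod = y) x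
    ⟨[], by simp, by simp⟩ ?_ y
  rintro z ⟨w, hw, rfl⟩ s hs
  refine ⟨w ++ [s], fun u hu => ?_, by simp [mul_assoc]⟩
  rcases List.mem_append.1 hu with h | h
  · exact hw u h
  · rw [List.mem_singleton.1 h]; exact hs

/-! ### Potentials -/

theorem psum_append {K : Type} [AddCommMonoid K] (c : Γ → Γ → K) (w w' : List Γ) (x : Γ) :
    psum c x (w ++ w') = psum c x w + psum c (x * w.prod) w' := by
  induction w generalizing x with
  | nil => simp [psum]
  | cons s w ih => simp only [List.cons_append, psum, List.prod_cons, ih, add_assoc, mul_assoc]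

/-- a cochain which vanishes on short closed walks has a potential -/
theorem exists_pot (hS : GenSet S) {N : ℕ} (hF : FP2 S N) (c : Γ → Γ → ℚ)
    (hc : ∀ x (w : List Γ), (∀ s ∈ w, s ∈ S) → w.prod = 1 → w.length ≤ N → psum c x w = 0) (p : Γ) :
    ∃ v : Γ → ℚ, v p = 0 ∧ ∀ y, ∀ s ∈ S, v (y * s) = v y + c y s := by
  have hall := hF c hc
  choose b hb hbp using fun y => exists_word hS y p
  have key : ∀ w : List Γ, (∀ s ∈ w, s ∈ S) → psum c p w = - psum c (p * w.prod) (b (p * w.prod)) := by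
    intro w hw
    have h1 := hall p (w ++ b (p * w.prod)) (fun s hs => by
      rcases List.mem_append.1 hs with h | h
      · exact hw s h
      · exact hb _ s h) (by
      rw [List.prod_append]
      have := hbp (p * w.prod)
      rw [mul_assoc] at this
      exact mul_left_cancel (a := p) (by rw [this, mul_one]))
    rw [psum_append] at h1
    exact eq_neg_of_add_eq_zero_left h1
  refine ⟨fun y => - psum c y (b y), ?_, fun y s hs => ?_⟩
  · have := key [] (by simp)
    simp only [psum, List.prod_nil, mul_one] at this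
    exact this.symm
  · obtain ⟨w, hw, rfl⟩ := exists_word hS p y
    have h1 := key w hw
    have h2 := key (w ++ [s]) (fun u hu => by
      rcases List.mem_append.1 hu with h | h
      · exact hw u h
      · rw [List.mem_singleton.1 h]; exact hs)
    have e1 : p * (w ++ [s]).prod = p * w.prod * s := by simp [mul_assoc]
    rw [e1, psum_append, h1] at h2
    simp only [psum, add_zero] at h2
    exact h2.symm

/-! ### Bands and half-spaces -/

/-- the band of radius `R` at level `t` -/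
def Band (θ : Γ → ℝ) (R t : ℝ) (y : Γ) : Prop := |θ y - t| ≤ R

/-- connected in the band -/
abbrev Cn (S : Finset Γ) (θ : Γ → ℝ) (R t : ℝ) (x y : Γ) : Prop := Conn S (Band θ R t) x y

/-- `H` is the half-space of the component of `p` at the level `t` -/
structure IsH (S : Finset Γ) (θ : Γ → ℝ) (R t : ℝ) (p : Γ) (H : Set Γ) : Prop where
  self : ∀ x, Cn S θ R t p x → (x ∈ H ↔ t ≤ θ x)
  next : ∀ x, Cn S θ R t p x → ∀ s ∈ S, (x * s ∈ H ↔ t ≤ θ (x * s))
  out : ∀ x, ¬ Cn S θ R t p x → ∀ s ∈ S, (x * s ∈ H ↔ x ∈ H)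

theorem IsH.unique (hS : GenSet S) {R t : ℝ} {p : Γ} {H H' : Set Γ} (hp : Band θ R t p)
    (h : IsH S θ R t p H) (h' : IsH S θ R t p H') : H = H' := by
  ext y
  refine gen_ind hS (P := fun y => y ∈ H ↔ y ∈ H') p ?_ ?_ y
  · rw [h.self p (conn_refl hp), h'.self p (conn_refl hp)]
  · intro x hx s hs
    by_cases hK : Cn S θ R t p x
    · rw [h.next x hK s hs, h'.next x hK s hs]
    · rw [h.out x hK s hs, h'.out x hK s hs, hx]

theorem IsH.congr (hS : GenSet S) {R t : ℝ} {p q : Γ} {H : Set Γ} (hpq : Cn S θ R t p q)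
    (h : IsH S θ R t p H) : IsH S θ R t q H := by
  have e : ∀ x, Cn S θ R t q x ↔ Cn S θ R t p x := fun x =>
    ⟨fun h1 => conn_trans hpq h1, fun h1 => conn_trans (conn_symm hS hpq) h1⟩
  exact ⟨fun x hx => h.self x ((e x).1 hx), fun x hx => h.next x ((e x).1 hx),
    fun x hx => h.out x (fun h1 => hx ((e x).2 h1))⟩

theorem char_mul (hθ : IsChar θ) (a b : Γ) : θ (a * b) = θ a + θ b := hθ a b

theorem char_one (hθ : IsChar θ) : θ 1 = 0 := by
  have := hθ 1 1
  rw [mul_one] at this
  linarith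

theorem char_inv (hθ : IsChar θ) (a : Γ) : θ a⁻¹ = - θ a := by
  have := hθ a a⁻¹
  rw [mul_inv_cancel, char_one hθ] at this
  linarith

theorem cn_translate (hθ : IsChar θ) {R t : ℝ} (g : Γ) {x y : Γ} (h : Cn S θ R t x y) :
    Cn S θ R (t + θ g) (g * x) (g * y) := by
  refine conn_mono (fun z hz => ?_) (conn_translate g h)
  unfold Band at hz ⊢
  rw [hθ, char_inv hθ] at hz
  rwa [show θ z - (t + θ g) = -θ g + θ z - t by ring]

theorem cn_translate_iff (hθ : IsChar θ) {R t : ℝ} (g : Γ) {x y : Γ} :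
    Cn S θ R (t + θ g) (g * x) (g * y) ↔ Cn S θ R t x y := by
  refine ⟨fun h => ?_, cn_translate hθ g⟩
  have := cn_translate hθ g⁻¹ h
  rw [char_inv hθ, inv_mul_cancel_left, inv_mul_cancel_left] at this
  rwa [show t + θ g + -θ g = t by ring] at this

theorem IsH.translate (hθ : IsChar θ) {R t : ℝ} {p : Γ} {H : Set Γ} (g : Γ)
    (h : IsH S θ R t p H) : IsH S θ R (t + θ g) (g * p) {y | g⁻¹ * y ∈ H} := by
  have e : ∀ x, Cn S θ R (t + θ g) (g * p) x ↔ Cn S θ R t p (g⁻¹ * x) := by
    intro x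
    rw [← cn_translate_iff hθ (S := S) (R := R) (t := t) g (x := p) (y := g⁻¹ * x),
      mul_inv_cancel_left]
  have e2 : ∀ x, t ≤ θ (g⁻¹ * x) ↔ t + θ g ≤ θ x := by
    intro x
    rw [hθ, char_inv hθ]
    constructor <;> intro h <;> linarith
  refine ⟨fun x hx => ?_, fun x hx s hs => ?_, fun x hx s hs => ?_⟩
  · show g⁻¹ * x ∈ H ↔ _
    rw [h.self _ ((e x).1 hx), e2]
  · show g⁻¹ * (x * s) ∈ H ↔ _
    rw [← mul_assoc, h.next _ ((e x).1 hx) s hs, mul_assoc, e2]
  · show g⁻¹ * (x * s) ∈ H ↔ g⁻¹ * x ∈ H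
    rw [← mul_assoc]
    exact h.out _ (fun h1 => hx ((e x).2 h1)) s hs

/-! ### Existence -/

/-- bound for the generators -/
def Rho (S : Finset Γ) (θ : Γ → ℝ) (ρ : ℝ) : Prop := 0 ≤ ρ ∧ ∀ s ∈ S, |θ s| ≤ ρ

open Classical in
/-- the cochain of a component -/
noncomputable def cK (S : Finset Γ) (θ : Γ → ℝ) (R t : ℝ) (p x s : Γ) : ℚ :=
  if Cn S θ R t p x then (if t ≤ θ (x * s) then 1 else 0) - (if t ≤ θ x then 1 else 0) else 0

open Classical in
theorem cK_in {R t : ℝ} {p x s : Γ} (h : Cn S θ R t p x) : cK S θ R t p x s =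
    (if t ≤ θ (x * s) then 1 else 0) - (if t ≤ θ x then 1 else 0) := if_pos h

theorem cK_out {R t : ℝ} {p x s : Γ} (h : ¬ Cn S θ R t p x) : cK S θ R t p x s = 0 := if_neg h

/-- far from the level all terms vanish -/
theorem psum_far (hθ : IsChar θ) {ρ : ℝ} (hρ : Rho S θ ρ) {R t : ℝ} (p : Γ) :
    ∀ (w : List Γ) (x : Γ), (∀ s ∈ w, s ∈ S) → (w.length : ℝ) * ρ < |θ x - t| →
      psum (cK S θ R t p) x w = 0 := by
  classical
  intro w
  induction w with
  | nil => intro x _ _; rfl
  | cons s w ih =>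
    intro x hw hx
    have hs : |θ s| ≤ ρ := hρ.2 s (hw s List.mem_cons_self)
    rw [List.length_cons] at hx
    push_cast at hx
    have hl : 0 ≤ (w.length : ℝ) * ρ := mul_nonneg (Nat.cast_nonneg _) hρ.1
    have h0 := hρ.1
    have h1 : (w.length : ℝ) * ρ < |θ (x * s) - t| := by
      rw [hθ]
      have : |θ x - t| ≤ |θ x + θ s - t| + |θ s| := by
        have := abs_sub_abs_le_abs_sub (θ x - t) (-θ s)
        rw [abs_neg] at this
        rw [show θ x - t - -θ s = θ x + θ s - t by ring] at this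
        linarith
      nlinarith
    rw [psum, ih _ (fun u hu => hw u (List.mem_cons_of_mem _ hu)) h1, add_zero]
    by_cases hK : Cn S θ R t p x
    · rw [cK_in hK]
      have h2 : (t ≤ θ (x * s)) ↔ (t ≤ θ x) := by
        rw [hθ]
        have h3 : ρ < |θ x - t| := by nlinarith
        rcases abs_cases (θ x - t) with h4 | h4 <;> rcases abs_le.1 hs with ⟨h5, h6⟩
        · constructor <;> intro _ <;> linarith
        · constructor <;> intro h7 <;> linarith
      simp only [h2, sub_self]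
    · exact cK_out hK

theorem psum_near (hS : GenSet S) {R t : ℝ} (p : Γ) :
    ∀ (w : List Γ) (x : Γ), (∀ s ∈ w, s ∈ S) →
      (∀ w' : List Γ, w' <+: w → Band θ R t (x * w'.prod)) →
      psum (cK S θ R t p) x w = cK S θ R t p x w.prod := by
  classical
  intro w
  induction w with
  | nil =>
    intro x _ _
    by_cases hK : Cn S θ R t p x
    · rw [cK_in hK]; simp [psum]
    · rw [cK_out hK]; simp [psum]
  | cons s w ih =>
    intro x hw hx
    have hs := hw s List.mem_cons_self
    have hbx : Band θ R t x := by simpa using hx [] (List.nil_prefix)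
    have hbs : Band θ R t (x * s) := by
      simpa using hx [s] (by simp)
    rw [psum, ih (x * s) (fun u hu => hw u (List.mem_cons_of_mem _ hu)) (fun w' hw' => by
      have := hx (s :: w') (by simpa using hw')
      rwa [List.prod_cons, ← mul_assoc] at this)]
    by_cases hK : Cn S θ R t p x
    · have hK' : Cn S θ R t p (x * s) := conn_step hK hs hbs
      rw [cK_in hK, cK_in hK', cK_in hK, List.prod_cons, ← mul_assoc]
      ring
    · have hK' : ¬ Cn S θ R t p (x * s) := fun h => hK (by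
        have := conn_step h (hS.inv s hs) (by rwa [mul_inv_cancel_right])
        rwa [mul_inv_cancel_right] at this)
      rw [cK_out hK, cK_out hK', cK_out hK, add_zero]

theorem theta_prefix (hθ : IsChar θ) {ρ : ℝ} (hρ : Rho S θ ρ) :
    ∀ (w : List Γ), (∀ s ∈ w, s ∈ S) → |θ w.prod| ≤ w.length * ρ := by
  intro w
  induction w with
  | nil => intro _; simp [char_one hθ]
  | cons s w ih =>
    intro hw
    rw [List.prod_cons, hθ, List.length_cons]
    push_cast
    have h1 := hρ.2 s (hw s List.mem_cons_self)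
    have h2 := ih (fun u hu => hw u (List.mem_cons_of_mem _ hu))
    have h3 := abs_add_le (θ s) (θ w.prod)
    linarith

theorem exists_isH (hS : GenSet S) {N : ℕ} (hF : FP2 S N) (hθ : IsChar θ) {ρ R : ℝ}
    (hρ : Rho S θ ρ) (hR : 3 * (N + 1) * ρ ≤ R) (t : ℝ) {p : Γ} (hp : Band θ R t p) :
    ∃ H, IsH S θ R t p H := by
  classical
  have hρ0 := hρ.1
  obtain ⟨v, hv0, hv⟩ := exists_pot hS hF (cK S θ R t p) (fun x w hw hw1 hwN => by
    have hN : (w.length : ℝ) ≤ N := by exact_mod_cast hwN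
    have hN0 : (0 : ℝ) ≤ N := Nat.cast_nonneg _
    by_cases hx : (N : ℝ) * ρ < |θ x - t|
    · exact psum_far hθ hρ p w x hw (by nlinarith)
    · rw [psum_near hS p w x hw, hw1]
      · by_cases hK : Cn S θ R t p x
        · rw [cK_in hK]; simp
        · exact cK_out hK
      · intro w' hw'
        unfold Band
        rw [hθ]
        have h1 := theta_prefix hθ hρ w' (fun s hs => hw s (hw'.subset hs))
        have h2 : (w'.length : ℝ) ≤ N := by
          have := hw'.length_le
          exact_mod_cast this.trans hwN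
        have h3 : (w'.length : ℝ) * ρ ≤ N * ρ := mul_le_mul_of_nonneg_right h2 hρ0
        have h4 : |θ x + θ w'.prod - t| ≤ |θ x - t| + |θ w'.prod| := by
          rw [show θ x + θ w'.prod - t = (θ x - t) + θ w'.prod by ring]
          exact abs_add_le _ _
        nlinarith) p
  set τ : Γ → ℚ := fun y => if t ≤ θ y then 1 else 0 with hτ
  have hτ1 : ∀ y, τ y = 1 ↔ t ≤ θ y := by
    intro y
    simp only [hτ]
    split_ifs with h <;> simp [h]
  have hin : ∀ x, Cn S θ R t p x → v x + τ p = τ x := by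
    rintro x ⟨h1, h2⟩
    induction h1 with
    | refl => rw [hv0, zero_add]
    | @tail b c h3 h4 ih =>
      obtain ⟨⟨s, hs, rfl⟩, hc⟩ := h4
      rw [hv b s hs, cK_in (S := S) (θ := θ) (R := R) (t := t) (p := p) (x := b) ⟨h3, h2⟩]
      have : v b = τ b - τ p := by rw [← ih]; ring
      rw [this]
      simp only [hτ]
      ring
  refine ⟨{y | v y + τ p = 1}, fun x hx => ?_, fun x hx s hs => ?_, fun x hx s hs => ?_⟩
  · show v x + τ p = 1 ↔ _
    rw [hin x hx, hτ1]
  · show v (x * s) + τ p = 1 ↔ _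
    rw [hv x s hs, cK_in hx]
    have h1 := hin x hx
    have : v x = τ x - τ p := by rw [← h1]; ring
    rw [this]
    refine Iff.trans ?_ (hτ1 (x * s))
    simp only [hτ]
    constructor <;> intro h <;> linarith
  · show v (x * s) + τ p = 1 ↔ v x + τ p = 1
    rw [hv x s hs, cK_out hx, add_zero]

/-! ### Nesting -/

/-- constancy on a connected set off the component -/
theorem IsH.const {R t : ℝ} {p : Γ} {H : Set Γ} (h : IsH S θ R t p H) {Q : Γ → Prop}
    {x y : Γ} (hxy : Conn S Q x y) (hQ : ∀ z, Conn S Q x z → ¬ Cn S θ R t p z) : y ∈ H ↔ x ∈ H := by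
  obtain ⟨h1, h2⟩ := hxy
  induction h1 with
  | refl => rfl
  | @tail b c h3 h4 ih =>
    obtain ⟨⟨s, hs, rfl⟩, hc⟩ := h4
    rw [h.out b (hQ b ⟨h3, h2⟩) s hs, ih]

/-- two walls with disjoint components -/
theorem nest (hS : GenSet S) {R t t' : ℝ} {p p' : Γ} {H H' : Set Γ}
    (h : IsH S θ R t p H) (h' : IsH S θ R t' p' H')
    (hd : ∀ x, Cn S θ R t p x → Cn S θ R t' p' x → False) (y : Γ) :
    (y ∈ H ↔ p' ∈ H) ∨ (y ∈ H' ↔ p ∈ H') := by
  refine gen_ind hS (P := fun y => (y ∈ H ↔ p' ∈ H) ∨ (y ∈ H' ↔ p ∈ H')) p (Or.inr Iff.rfl) ?_ y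
  intro x hx s hs
  by_cases hK : Cn S θ R t p x
  · have hK' : ¬ Cn S θ R t' p' x := fun h1 => hd x hK h1
    right
    rw [h'.out x hK' s hs]
    exact h'.const hK fun z hz hz' => hd z hz hz'
  by_cases hK' : Cn S θ R t' p' x
  · left
    rw [h.out x hK s hs]
    exact h.const hK' fun z hz hz' => hd z hz' hz
  · rw [h.out x hK s hs, h'.out x hK' s hs]
    exact hx

/-- an edge which does not cross the level does not change the half-space -/
theorem IsH.no_cross {R t : ℝ} {p : Γ} {H : Set Γ} (h : IsH S θ R t p H) {x s : Γ} (hs : s ∈ S)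
    (hx : t ≤ θ (x * s) ↔ t ≤ θ x) : x * s ∈ H ↔ x ∈ H := by
  by_cases hK : Cn S θ R t p x
  · rw [h.next x hK s hs, h.self x hK, hx]
  · exact h.out x hK s hs

end Vale.Agent.P260.H66
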