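import Mathlib
import Vale.Agent.P260.Defs

/-!
# P260 climb, M3: an invariant mean from Følner sets
-/

open Filter Topology

namespace Vale.Agent.P260.H66

theorem exists_mean {Γ : Type} [Group Γ] (hF : Folner Γ) : ∃ μ : Set Γ → ℝ, μ Set.univ = 1 ∧
    (∀ A, 0 ≤ μ A) ∧ (∀ A B, Disjoint A B → μ (A ∪ B) = μ A + μ B) ∧
    ∀ g A, μ {y | g⁻¹ * y ∈ A} = μ A := by
  classical
  choose F hne hF using fun i : Finset Γ × ℕ => hF i.1 (1 / ((i.2 : ℝ) + 1)) (by positivity)
  have hc : ∀ i, (0 : ℝ) < (F i).card := fun i => by exact_mod_cast (hne i).card_pos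
  set m : Finset Γ × ℕ → Set Γ → ℝ := fun i A => (((F i).filter (· ∈ A)).card : ℝ) / (F i).card
    with hmdef
  have hm01 : ∀ i A, m i A ∈ Set.Icc (0 : ℝ) 1 := by
    intro i A
    refine ⟨div_nonneg (Nat.cast_nonneg _) (hc i).le, (div_le_one (hc i)).2 ?_⟩
    exact_mod_cast Finset.card_filter_le _ _
  let U : Ultrafilter (Finset Γ × ℕ) := Ultrafilter.of atTop
  have hU : (U : Filter (Finset Γ × ℕ)) ≤ atTop := Ultrafilter.of_le _
  have hlim : ∀ A, ∃ x, x ∈ Set.Icc (0 : ℝ) 1 ∧ Tendsto (fun i => m i A) U (𝓝 x) := by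
    intro A
    obtain ⟨x, hx, hx'⟩ := isCompact_Icc.ultrafilter_le_nhds (U.map fun i => m i A)
      (tendsto_principal.2 (Eventually.of_forall fun i => hm01 i A))
    exact ⟨x, hx, hx'⟩
  choose μ hμ hT using hlim
  have hle : ∀ g A, μ {y | g⁻¹ * y ∈ A} ≤ μ A := by
    intro g A
    refine le_of_forall_pos_le_add fun ε hε => ?_
    obtain ⟨n, hn⟩ := exists_nat_one_div_lt hε
    refine le_of_tendsto_of_tendsto (hT _) ((hT A).add tendsto_const_nhds)
      (hU ((eventually_ge_atTop (({g⁻¹} : Finset Γ), n)).mono fun i hi => ?_))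
    have h1 : g⁻¹ ∈ i.1 := hi.1 (Finset.mem_singleton_self _)
    have h2 : (n : ℝ) ≤ i.2 := by exact_mod_cast hi.2
    have h3 : 1 / ((i.2 : ℝ) + 1) ≤ ε := by
      refine le_trans ?_ hn.le
      exact one_div_le_one_div_of_le (by positivity) (by linarith)
    have h4 := hF i g⁻¹ h1
    have h5 : ((F i).filter (· ∈ {y | g⁻¹ * y ∈ A})).card ≤
        ((F i).filter (· ∈ A)).card + (((F i).image fun x => g⁻¹ * x) \ F i).card := by
      rw [← Finset.card_image_of_injective _ (mul_right_injective g⁻¹)]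
      refine le_trans (Finset.card_le_card ?_) (Finset.card_union_le _ _)
      intro y hy
      simp only [Finset.mem_image, Finset.mem_filter, Set.mem_ofPred_eq] at hy
      obtain ⟨x, ⟨hx, hxA⟩, rfl⟩ := hy
      by_cases hxF : g⁻¹ * x ∈ F i
      · exact Finset.mem_union_left _ (Finset.mem_filter.2 ⟨hxF, hxA⟩)
      · exact Finset.mem_union_right _ (Finset.mem_sdiff.2 ⟨Finset.mem_image_of_mem _ hx, hxF⟩)
    have h6 : (((F i).filter (· ∈ {y | g⁻¹ * y ∈ A})).card : ℝ) ≤
        ((F i).filter (· ∈ A)).card + (((F i).image fun x => g⁻¹ * x) \ F i).card := by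
      exact_mod_cast h5
    show (((F i).filter (· ∈ {y | g⁻¹ * y ∈ A})).card : ℝ) / (F i).card ≤
      ((F i).filter (· ∈ A)).card / (F i).card + ε
    rw [div_add' _ _ _ (hc i).ne']
    refine div_le_div_of_nonneg_right ?_ (hc i).le
    have h7 : 1 / ((i.2 : ℝ) + 1) * (F i).card ≤ ε * (F i).card :=
      mul_le_mul_of_nonneg_right h3 (hc i).le
    linarith
  refine ⟨μ, ?_, fun A => (hμ A).1, fun A B hAB => ?_, fun g A => le_antisymm (hle g A) ?_⟩
  · refine tendsto_nhds_unique (hT Set.univ) ?_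
    refine tendsto_const_nhds.congr fun i => ?_
    simp only [hmdef, Set.mem_univ, Finset.filter_true]
    exact (div_self (hc i).ne').symm
  · refine tendsto_nhds_unique (hT (A ∪ B)) (((hT A).add (hT B)).congr fun i => ?_)
    simp only [hmdef]
    rw [← add_div, ← Nat.cast_add, ← Finset.card_union_of_disjoint, ← Finset.filter_or]
    · simp only [Set.mem_union]
    · rw [Finset.disjoint_filter]
      exact fun x _ h1 h2 => Set.disjoint_left.1 hAB h1 h2
  · have := hle g⁻¹ {y | g⁻¹ * y ∈ A}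
    simpa using this

end Vale.Agent.P260.H66
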