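import Mathlib
import Vale.Agent.P260.H493.Defs
import Vale.Agent.P260.H493.Spec
import Vale.Agent.P260.H66.Wall
import Vale.Agent.P260.H66.Mean

/-!
# P260 climb, M3: Theorem C of Bieri-Neumann-Strebel for amenable groups
-/

namespace Vale.Agent.P260.H66

open Vale.Agent.P260.H493

variable {Γ : Type} [Group Γ] {S : Finset Γ} {θ : Γ → ℝ}

theorem char_zpow (hθ : IsChar θ) (h : Γ) (n : ℤ) : θ (h ^ n) = n * θ h := by
  let f : Γ →* Multiplicative ℝ :=
    { toFun := fun x => Multiplicative.ofAdd (θ x)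
      map_one' := by rw [char_one hθ]; rfl
      map_mul' := fun a b => by rw [hθ]; rfl }
  have h1 := map_zpow f h n
  have h2 := congrArg Multiplicative.toAdd h1
  rw [toAdd_zpow] at h2
  simpa [f] using h2

theorem char_line (hθ : IsChar θ) (y h : Γ) (n : ℤ) : θ (y * h ^ n) = θ y + n * θ h := by
  rw [hθ, char_zpow hθ]

/-- the point of the line `A_y` at the level `t` -/
noncomputable def Pt (θ : Γ → ℝ) (h y : Γ) (t : ℝ) : Γ := y * h ^ ⌈(t - θ y) / θ h⌉

theorem conn_line {Q : Γ → Prop} {h : Γ} (hh : h ∈ S) (y : Γ) (m n : ℤ) (hmn : m ≤ n)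
    (hQ : ∀ k, m ≤ k → k ≤ n → Q (y * h ^ k)) : Conn S Q (y * h ^ m) (y * h ^ n) := by
  induction n, hmn using Int.leInduction with
  | base => exact conn_refl (hQ m le_rfl le_rfl)
  | succ n hn ih =>
    have h1 := ih fun k hk hk' => hQ k hk (by omega)
    have h2 := hQ (n + 1) (by omega) le_rfl
    rw [zpow_add_one, ← mul_assoc] at h2 ⊢
    exact conn_step h1 hh h2

/-- The context of the proof. -/
structure Ctx (S : Finset Γ) (θ : Γ → ℝ) (R : ℝ) (h : Γ) where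
  hS : GenSet S
  hθ : IsChar θ
  hh : h ∈ S
  h0 : 0 < θ h
  hR : ∀ s ∈ S, |θ s| ≤ R
  Hf : ℝ → Γ → Set Γ
  isH : ∀ t p, Band θ R t p → IsH S θ R t p (Hf t p)
  μ : Set Γ → ℝ
  mu_univ : μ Set.univ = 1
  mu_nonneg : ∀ A, 0 ≤ μ A
  mu_add : ∀ A B, Disjoint A B → μ (A ∪ B) = μ A + μ B
  mu_inv : ∀ g A, μ {y | g⁻¹ * y ∈ A} = μ A

namespace Ctx

variable {R : ℝ} {h : Γ} (X : Ctx S θ R h)

include X

theorem hhR : θ h ≤ R := le_trans (le_abs_self _) (X.hR h X.hh)

theorem P_ge (y : Γ) (t : ℝ) : t ≤ θ (Pt θ h y t) := by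
  unfold Pt
  rw [char_line X.hθ]
  have h1 := Int.le_ceil ((t - θ y) / θ h)
  rw [div_le_iff₀ X.h0] at h1
  linarith

theorem P_lt (y : Γ) (t : ℝ) : θ (Pt θ h y t) < t + θ h := by
  unfold Pt
  rw [char_line X.hθ]
  have h1 := Int.ceil_lt_add_one ((t - θ y) / θ h)
  have h2 := mul_lt_mul_of_pos_right h1 X.h0
  rw [add_mul, div_mul_cancel₀ _ X.h0.ne'] at h2
  linarith

theorem P_band (y : Γ) (t : ℝ) : Band θ R t (Pt θ h y t) := by
  have h1 := X.P_ge y t
  have h2 := X.P_lt y t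
  have h3 := X.hhR
  unfold Band
  rw [abs_le]
  constructor <;> linarith [X.h0]

theorem P_translate (g y : Γ) (t : ℝ) : Pt θ h (g * y) (t + θ g) = g * Pt θ h y t := by
  unfold Pt
  rw [X.hθ, mul_assoc, show t + θ g - (θ g + θ y) = t - θ y by ring]

theorem P_shift (y : Γ) (t : ℝ) : Pt θ h (y * h) t = Pt θ h y t := by
  unfold Pt
  rw [X.hθ, show (t - (θ y + θ h)) / θ h = (t - θ y) / θ h - 1 by
    have := X.h0.ne'
    field_simp
    ring, Int.ceil_sub_one, mul_assoc, ← zpow_one_add]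
  congr 2
  ring

theorem line_le {m n : ℤ} (y : Γ) (hmn : m ≤ n) : θ (y * h ^ m) ≤ θ (y * h ^ n) := by
  rw [char_line X.hθ, char_line X.hθ]
  have : (m : ℝ) ≤ n := by exact_mod_cast hmn
  have := mul_le_mul_of_nonneg_right this X.h0.le
  linarith

theorem conn_band {t : ℝ} (y : Γ) (m n : ℤ) (hm : Band θ R t (y * h ^ m))
    (hn : Band θ R t (y * h ^ n)) : Cn S θ R t (y * h ^ m) (y * h ^ n) := by
  have key : ∀ m n : ℤ, m ≤ n → Band θ R t (y * h ^ m) → Band θ R t (y * h ^ n) →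
      Cn S θ R t (y * h ^ m) (y * h ^ n) := by
    intro m n hmn hm hn
    refine conn_line X.hh y m n hmn fun k hk hk' => ?_
    have h1 := X.line_le y hk
    have h2 := X.line_le y hk'
    unfold Band at hm hn ⊢
    rw [abs_le] at hm hn ⊢
    constructor <;> linarith [hm.1, hm.2, hn.1, hn.2]
  rcases le_total m n with hmn | hmn
  · exact key m n hmn hm hn
  · exact conn_symm X.hS (key n m hmn hn hm)

theorem conn_ge {C : ℝ} (y : Γ) (m n : ℤ) (hm : C ≤ θ (y * h ^ m))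
    (hn : C ≤ θ (y * h ^ n)) : Conn S (fun z => C ≤ θ z) (y * h ^ m) (y * h ^ n) := by
  rcases le_total m n with hmn | hmn
  · exact conn_line X.hh y m n hmn fun k hk _ => hm.trans (X.line_le y hk)
  · exact conn_symm X.hS (conn_line X.hh y n m hmn fun k hk _ => hn.trans (X.line_le y hk))

theorem conn_le {C : ℝ} (y : Γ) (m n : ℤ) (hm : θ (y * h ^ m) ≤ C)
    (hn : θ (y * h ^ n) ≤ C) : Conn S (fun z => θ z ≤ C) (y * h ^ m) (y * h ^ n) := by
  rcases le_total m n with hmn | hmn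
  · exact conn_line X.hh y m n hmn fun k _ hk => (X.line_le y hk).trans hn
  · exact conn_symm X.hS (conn_line X.hh y n m hmn fun k _ hk => (X.line_le y hk).trans hm)

theorem line_cn {t : ℝ} (y : Γ) (n : ℤ) (hn : Band θ R t (y * h ^ n)) :
    Cn S θ R t (Pt θ h y t) (y * h ^ n) :=
  X.conn_band y _ n (X.P_band y t) hn

omit X in
theorem zconst {H : Set Γ} {y : Γ} (m : ℤ)
    (hk : ∀ k, m ≤ k → (y * h ^ (k + 1) ∈ H ↔ y * h ^ k ∈ H)) :
    ∀ n, m ≤ n → (y * h ^ n ∈ H ↔ y * h ^ m ∈ H) := by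
  intro n hn
  induction n, hn using Int.leInduction with
  | base => rfl
  | succ n hn ih => rw [hk n hn, ih]

/-- a line which does not meet the component is on one side -/
theorem line_const {t : ℝ} {q : Γ} {H : Set Γ} (hH : IsH S θ R t q H) {y : Γ}
    (hy : ¬ Cn S θ R t q (Pt θ h y t)) (m n : ℤ) : y * h ^ n ∈ H ↔ y * h ^ m ∈ H := by
  have h1 : ∀ k : ℤ, ¬ Cn S θ R t q (y * h ^ k) := fun k hk =>
    hy (conn_trans hk (conn_symm X.hS (X.line_cn y k (conn_right hk))))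
  have h2 : ∀ k : ℤ, (y * h ^ (k + 1) ∈ H ↔ y * h ^ k ∈ H) := by
    intro k
    rw [zpow_add_one, ← mul_assoc]
    exact hH.out _ (h1 k) h X.hh
  rcases le_total m n with hmn | hmn
  · exact zconst m (fun k _ => h2 k) n hmn
  · exact (zconst n (fun k _ => h2 k) m hmn).symm

theorem up_const {t : ℝ} {q : Γ} {H : Set Γ} (hH : IsH S θ R t q H) {y : Γ} {m n : ℤ}
    (hm : t ≤ θ (y * h ^ m)) (hn : t ≤ θ (y * h ^ n)) : y * h ^ n ∈ H ↔ y * h ^ m ∈ H := by
  have key : ∀ m n : ℤ, m ≤ n → t ≤ θ (y * h ^ m) → (y * h ^ n ∈ H ↔ y * h ^ m ∈ H) := by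
    intro m n hmn hm
    refine zconst m (fun k hk => ?_) n hmn
    have h1 := hm.trans (X.line_le y hk)
    have h2 := hm.trans (X.line_le y (show m ≤ k + 1 by omega))
    rw [zpow_add_one, ← mul_assoc] at h2 ⊢
    exact hH.no_cross X.hh (iff_of_true h2 h1)
  rcases le_total m n with hmn | hmn
  · exact key m n hmn hm
  · exact (key n m hmn hn).symm

theorem down_const {t : ℝ} {q : Γ} {H : Set Γ} (hH : IsH S θ R t q H) {y : Γ} {m n : ℤ}
    (hm : θ (y * h ^ m) < t) (hn : θ (y * h ^ n) < t) : y * h ^ n ∈ H ↔ y * h ^ m ∈ H := by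
  have key : ∀ m n : ℤ, m ≤ n → θ (y * h ^ n) < t → (y * h ^ n ∈ H ↔ y * h ^ m ∈ H) := by
    intro m n hmn hn
    have h3 : ∀ n', m ≤ n' → (n' ≤ n → (y * h ^ n' ∈ H ↔ y * h ^ m ∈ H)) := by
      intro n' hn'
      induction n', hn' using Int.leInduction with
      | base => exact fun _ => Iff.rfl
      | succ k hk ih =>
        intro hk'
        rw [← ih (by omega)]
        have h1 := lt_of_le_of_lt (X.line_le y (show k ≤ n by omega)) hn
        have h2 := lt_of_le_of_lt (X.line_le y hk') hn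
        rw [zpow_add_one, ← mul_assoc] at h2 ⊢
        exact hH.no_cross X.hh (iff_of_false (not_le.2 h2) (not_le.2 h1))
    exact h3 n hmn le_rfl
  rcases le_total m n with hmn | hmn
  · exact key m n hmn hn
  · exact (key n m hmn hm).symm

/-- the half-space of the wall which the line `A_y` crosses at the level `t` -/
theorem line_self {t : ℝ} {q : Γ} {H : Set Γ} (hH : IsH S θ R t q H) {y : Γ}
    (hy : Cn S θ R t q (Pt θ h y t)) (n : ℤ) : y * h ^ n ∈ H ↔ t ≤ θ (y * h ^ n) := by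
  by_cases hn : t ≤ θ (y * h ^ n)
  · refine iff_of_true ?_ hn
    have h1 := X.P_ge y t
    refine (X.up_const hH (y := y) (m := ⌈(t - θ y) / θ h⌉) h1 hn).2 ?_
    exact (hH.self _ hy).2 h1
  · refine iff_of_false ?_ hn
    push Not at hn
    have h1 := X.P_ge y t
    have h2 := X.P_lt y t
    have h3 : θ (y * h ^ (⌈(t - θ y) / θ h⌉ - 1)) = θ (Pt θ h y t) - θ h := by
      unfold Pt
      rw [char_line X.hθ, char_line X.hθ]
      push_cast
      ring
    have h4 : θ (y * h ^ (⌈(t - θ y) / θ h⌉ - 1)) < t := by rw [h3]; linarith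
    rw [X.down_const hH (y := y) (m := ⌈(t - θ y) / θ h⌉ - 1) h4 hn]
    have h5 : Band θ R t (y * h ^ (⌈(t - θ y) / θ h⌉ - 1)) := by
      unfold Band
      rw [h3, abs_le]
      have := X.hhR
      constructor <;> linarith [X.h0]
    rw [hH.self _ (conn_trans hy (X.line_cn y _ h5))]
    exact not_le.2 h4

/-- the half-space of `A_y` at the level `t` -/
theorem W_isH (t : ℝ) (y : Γ) : IsH S θ R t (Pt θ h y t) (X.Hf t (Pt θ h y t)) :=
  X.isH _ _ (X.P_band y t)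

theorem mu_mono {A B : Set Γ} (hAB : A ⊆ B) : X.μ A ≤ X.μ B := by
  have h1 := X.mu_add A (B \ A) Set.disjoint_sdiff_right
  rw [Set.union_sdiff_cancel hAB] at h1
  linarith [X.mu_nonneg (B \ A)]

theorem mu_compl (A : Set Γ) : X.μ Aᶜ = 1 - X.μ A := by
  have h1 := X.mu_add A Aᶜ disjoint_compl_right
  rw [Set.union_compl_self, X.mu_univ] at h1
  linarith

theorem mu_W (g y : Γ) (t : ℝ) : X.μ (X.Hf (t + θ g) (Pt θ h (g * y) (t + θ g))) =
    X.μ (X.Hf t (Pt θ h y t)) := by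
  rw [← X.mu_inv g (X.Hf t (Pt θ h y t))]
  congr 1
  refine IsH.unique X.hS (X.P_band _ _) (X.W_isH _ _) ?_
  rw [X.P_translate]
  exact (X.W_isH t y).translate X.hθ g

theorem mu_W_add (t : ℝ) (n : ℕ) : X.μ (X.Hf (t + n * θ h) (Pt θ h 1 (t + n * θ h))) =
    X.μ (X.Hf t (Pt θ h 1 t)) := by
  induction n with
  | zero => simp
  | succ n ih =>
    rw [← ih, ← X.mu_W h 1 (t + n * θ h), mul_one]
    have h1 := X.P_shift 1 (t + n * θ h + θ h)
    rw [one_mul] at h1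
    rw [h1]
    push_cast
    rw [show t + (n + 1) * θ h = t + n * θ h + θ h by ring]

omit X in
theorem bands_disj {t t' : ℝ} (ht : 2 * R < t' - t) {p p' : Γ} :
    ∀ x, Cn S θ R t p x → Cn S θ R t' p' x → False := by
  intro x h1 h2
  have h3 := conn_right h1
  have h4 := conn_right h2
  unfold Band at h3 h4
  rw [abs_le] at h3 h4
  linarith [h3.1, h3.2, h4.1, h4.2]

/-- half-spaces of far levels are nested -/
theorem W_sub {t t' : ℝ} (ht : 2 * R < t' - t) :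
    X.Hf t' (Pt θ h 1 t') ⊆ X.Hf t (Pt θ h 1 t) := by
  intro y hy
  have hR0 : 0 < R := lt_of_lt_of_le X.h0 X.hhR
  have h1 := nest X.hS (X.W_isH t 1) (X.W_isH t' 1) (bands_disj ht) y
  have h2 : Pt θ h 1 t' ∈ X.Hf t (Pt θ h 1 t) :=
    (X.line_self (X.W_isH t 1) (conn_refl (X.P_band 1 t)) _).2 (by
      have := X.P_ge 1 t'
      unfold Pt at this
      linarith)
  have h3 : Pt θ h 1 t ∉ X.Hf t' (Pt θ h 1 t') := by
    intro h4
    have h5 := (X.line_self (X.W_isH t' 1) (conn_refl (X.P_band 1 t')) _).1 h4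
    have h6 := X.P_lt 1 t
    unfold Pt at h6
    linarith [X.hhR]
  rcases h1 with h1 | h1
  · exact h1.2 h2
  · exact absurd (h1.1 hy) h3

theorem mu_const (t t' : ℝ) : X.μ (X.Hf t (Pt θ h 1 t)) = X.μ (X.Hf t' (Pt θ h 1 t')) := by
  have key : ∀ t t' : ℝ, X.μ (X.Hf t (Pt θ h 1 t)) ≤ X.μ (X.Hf t' (Pt θ h 1 t')) := by
    intro t t'
    obtain ⟨n, hn⟩ := exists_nat_gt ((2 * R + t' - t) / θ h)
    rw [div_lt_iff₀ X.h0] at hn
    rw [← X.mu_W_add t n]
    exact X.mu_mono (X.W_sub (by linarith))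
  exact le_antisymm (key t t') (key t' t)

theorem mu_all (t : ℝ) (y : Γ) : X.μ (X.Hf t (Pt θ h y t)) = X.μ (X.Hf 0 (Pt θ h 1 0)) := by
  have h1 := X.mu_W y 1 (t - θ y)
  rw [mul_one, sub_add_cancel] at h1
  rw [h1]
  exact X.mu_const _ _

theorem edge {t : ℝ} {q : Γ} {H : Set Γ} (hH : IsH S θ R t q H) {s : Γ} (hs : s ∈ S)
    (hx : t ≤ θ s ↔ t ≤ 0) : s ∈ H ↔ (1 : Γ) ∈ H := by
  have := hH.no_cross (x := 1) hs (by rwa [one_mul, char_one X.hθ])
  rwa [one_mul] at this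

omit X in
theorem zero_pow (y : Γ) : y * h ^ (0 : ℤ) = y := by simp

theorem W4up {s : Γ} (hs : s ∈ S) {t : ℝ} (ht : 0 < t) (hst : θ s < t)
    (hn : ¬ Cn S θ R t (Pt θ h 1 t) (Pt θ h s t)) : X.μ (X.Hf 0 (Pt θ h 1 0)) ≤ 0 := by
  have hR0 : 0 < R := lt_of_lt_of_le X.h0 X.hhR
  have hn' : ¬ Cn S θ R t (Pt θ h s t) (Pt θ h 1 t) := fun h1 => hn (conn_symm X.hS h1)
  have i1 := X.W_isH t 1
  have i2 := X.W_isH t s
  have e1 : ¬ t ≤ θ (1 : Γ) := by rw [char_one X.hθ]; linarith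
  -- values at `1` and `s`
  have a1 : (1 : Γ) ∉ X.Hf t (Pt θ h 1 t) := by
    have := X.line_self i1 (conn_refl (X.P_band 1 t)) 0
    rw [zero_pow] at this
    exact fun h1 => e1 (this.1 h1)
  have a2 : s ∉ X.Hf t (Pt θ h 1 t) := fun h1 =>
    a1 ((X.edge i1 hs (iff_of_false (not_le.2 hst) (not_le.2 ht))).1 h1)
  have b2 : s ∉ X.Hf t (Pt θ h s t) := by
    have := X.line_self i2 (conn_refl (X.P_band s t)) 0
    rw [zero_pow] at this
    exact fun h1 => not_le.2 hst (this.1 h1)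
  have b1 : (1 : Γ) ∉ X.Hf t (Pt θ h s t) := fun h1 =>
    b2 ((X.edge i2 hs (iff_of_false (not_le.2 hst) (not_le.2 ht))).2 h1)
  have a3 : ∀ n : ℤ, s * h ^ n ∉ X.Hf t (Pt θ h 1 t) := by
    intro n h1
    have := X.line_const i1 hn 0 n
    rw [zero_pow] at this
    exact a2 (this.1 h1)
  have b3 : ∀ n : ℤ, 1 * h ^ n ∉ X.Hf t (Pt θ h s t) := by
    intro n h1
    have := X.line_const i2 hn' 0 n
    rw [zero_pow] at this
    exact b1 (this.1 h1)
  have hdisj : Disjoint (X.Hf t (Pt θ h 1 t)) (X.Hf t (Pt θ h s t)) := by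
    rw [Set.disjoint_left]
    intro y h1 h2
    have h3 := nest X.hS i1 i2 (fun x h4 h5 => hn (conn_trans h4 (conn_symm X.hS h5))) y
    rcases h3 with h3 | h3
    · exact a3 _ (h3.1 h1)
    · exact b3 _ (h3.1 h2)
  -- a very low level
  set t₀ : ℝ := min 0 (θ s) - 2 * R - 1 with ht₀
  have l1 : t₀ < 0 := by have := min_le_left 0 (θ s); linarith
  have l2 : t₀ < θ s := by have := min_le_right 0 (θ s); linarith
  have l3 : 2 * R < t - t₀ := by have := min_le_left 0 (θ s); linarith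
  have i0 := X.W_isH t₀ 1
  have c1 : (1 : Γ) ∈ X.Hf t₀ (Pt θ h 1 t₀) := by
    have := X.line_self i0 (conn_refl (X.P_band 1 t₀)) 0
    rw [zero_pow] at this
    exact this.2 (by rw [char_one X.hθ]; exact l1.le)
  have c2 : s ∈ X.Hf t₀ (Pt θ h 1 t₀) := (X.edge i0 hs (iff_of_true l2.le l1.le)).2 c1
  have c3 : Pt θ h s t ∈ X.Hf t₀ (Pt θ h 1 t₀) := by
    have h1 := X.up_const i0 (y := s) (m := 0) (n := ⌈(t - θ s) / θ h⌉)
      (by rw [zero_pow]; exact l2.le) (by have := X.P_ge s t; unfold Pt at this; linarith)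
    rw [zero_pow] at h1
    exact h1.2 c2
  have sub1 : X.Hf t (Pt θ h 1 t) ⊆ X.Hf t₀ (Pt θ h 1 t₀) := X.W_sub l3
  have sub2 : X.Hf t (Pt θ h s t) ⊆ X.Hf t₀ (Pt θ h 1 t₀) := by
    intro y hy
    have h1 := nest X.hS i0 i2 (bands_disj l3) y
    rcases h1 with h1 | h1
    · exact h1.2 c3
    · exact absurd (h1.1 hy) (b3 _)
  have h1 := X.mu_mono (Set.union_subset sub1 sub2)
  rw [X.mu_add _ _ hdisj] at h1
  linarith [X.mu_all t 1, X.mu_all t s, X.mu_all t₀ 1]

theorem W4down {s : Γ} (hs : s ∈ S) {t : ℝ} (ht : t ≤ 0) (hst : t ≤ θ s)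
    (hn : ¬ Cn S θ R t (Pt θ h 1 t) (Pt θ h s t)) : 1 ≤ X.μ (X.Hf 0 (Pt θ h 1 0)) := by
  have hR0 : 0 < R := lt_of_lt_of_le X.h0 X.hhR
  have hn' : ¬ Cn S θ R t (Pt θ h s t) (Pt θ h 1 t) := fun h1 => hn (conn_symm X.hS h1)
  have i1 := X.W_isH t 1
  have i2 := X.W_isH t s
  have a1 : (1 : Γ) ∈ X.Hf t (Pt θ h 1 t) := by
    have := X.line_self i1 (conn_refl (X.P_band 1 t)) 0
    rw [zero_pow] at this
    exact this.2 (by rw [char_one X.hθ]; exact ht)
  have a2 : s ∈ X.Hf t (Pt θ h 1 t) := (X.edge i1 hs (iff_of_true hst ht)).2 a1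
  have b2 : s ∈ X.Hf t (Pt θ h s t) := by
    have := X.line_self i2 (conn_refl (X.P_band s t)) 0
    rw [zero_pow] at this
    exact this.2 hst
  have b1 : (1 : Γ) ∈ X.Hf t (Pt θ h s t) := (X.edge i2 hs (iff_of_true hst ht)).1 b2
  have a3 : ∀ n : ℤ, s * h ^ n ∈ X.Hf t (Pt θ h 1 t) := by
    intro n
    have := X.line_const i1 hn 0 n
    rw [zero_pow] at this
    exact this.2 a2
  have b3 : ∀ n : ℤ, 1 * h ^ n ∈ X.Hf t (Pt θ h s t) := by
    intro n
    have := X.line_const i2 hn' 0 n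
    rw [zero_pow] at this
    exact this.2 b1
  have hdisj : Disjoint (X.Hf t (Pt θ h 1 t))ᶜ (X.Hf t (Pt θ h s t))ᶜ := by
    rw [Set.disjoint_left]
    intro y h1 h2
    have h3 := nest X.hS i1 i2 (fun x h4 h5 => hn (conn_trans h4 (conn_symm X.hS h5))) y
    rcases h3 with h3 | h3
    · exact h1 (h3.2 (a3 _))
    · exact h2 (h3.2 (b3 _))
  -- a very high level
  set t₁ : ℝ := max 0 (θ s) + 2 * R + 1 with ht₁
  have l1 : 0 < t₁ := by have := le_max_left 0 (θ s); linarith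
  have l2 : θ s < t₁ := by have := le_max_right 0 (θ s); linarith
  have l3 : 2 * R < t₁ - t := by have := le_max_left 0 (θ s); linarith
  have i0 := X.W_isH t₁ 1
  have c1 : (1 : Γ) ∉ X.Hf t₁ (Pt θ h 1 t₁) := by
    have := X.line_self i0 (conn_refl (X.P_band 1 t₁)) 0
    rw [zero_pow] at this
    exact fun h1 => absurd (this.1 h1) (by rw [char_one X.hθ]; exact not_le.2 l1)
  have c2 : s ∉ X.Hf t₁ (Pt θ h 1 t₁) := fun h1 =>
    c1 ((X.edge i0 hs (iff_of_false (not_le.2 l2) (not_le.2 l1))).1 h1)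
  have c3 : Pt θ h s t ∉ X.Hf t₁ (Pt θ h 1 t₁) := by
    intro h2
    have h1 := X.down_const i0 (y := s) (m := 0) (n := ⌈(t - θ s) / θ h⌉)
      (by rw [zero_pow]; exact l2) (by
        have := X.P_lt s t
        unfold Pt at this
        linarith [X.hhR])
    rw [zero_pow] at h1
    exact c2 (h1.1 h2)
  have sub1 : X.Hf t₁ (Pt θ h 1 t₁) ⊆ X.Hf t (Pt θ h 1 t) := X.W_sub l3
  have sub2 : X.Hf t₁ (Pt θ h 1 t₁) ⊆ X.Hf t (Pt θ h s t) := by
    intro y hy
    have h1 := nest X.hS i2 i0 (bands_disj l3) y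
    rcases h1 with h1 | h1
    · exact h1.2 (b3 _)
    · exact absurd (h1.1 hy) c3
  have h1 := X.mu_mono (Set.union_subset (Set.compl_subset_compl.2 sub1)
    (Set.compl_subset_compl.2 sub2))
  rw [X.mu_add _ _ hdisj, X.mu_compl, X.mu_compl, X.mu_compl] at h1
  linarith [X.mu_all t 1, X.mu_all t s, X.mu_all t₁ 1]

theorem W5up (hup : ∀ s ∈ S, ∀ t : ℝ, 0 < t → θ s < t → Cn S θ R t (Pt θ h 1 t) (Pt θ h s t)) :
    Up S θ := by
  have h1 : ∀ y, ∀ s ∈ S, ∀ t : ℝ, θ y < t → θ (y * s) < t →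
      Cn S θ R t (Pt θ h y t) (Pt θ h (y * s) t) := by
    intro y s hs t ht ht'
    rw [X.hθ] at ht'
    have h2 := cn_translate X.hθ y (hup s hs (t - θ y) (by linarith) (by linarith))
    rw [← X.P_translate, ← X.P_translate, sub_add_cancel, mul_one] at h2
    exact h2
  have h2 : ∀ g : Γ, ∃ T : ℝ, ∀ t, T < t → Cn S θ R t (Pt θ h 1 t) (Pt θ h g t) := by
    intro g
    refine gen_ind X.hS (P := fun g => ∃ T : ℝ, ∀ t, T < t →
      Cn S θ R t (Pt θ h 1 t) (Pt θ h g t)) 1 ⟨0, fun t _ => conn_refl (X.P_band 1 t)⟩ ?_ g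
    rintro x ⟨T, hT⟩ s hs
    refine ⟨max T (max (θ x) (θ (x * s))), fun t ht => ?_⟩
    have e1 := lt_of_le_of_lt (le_max_left _ _) ht
    have e2 := lt_of_le_of_lt (le_max_right _ _) ht
    exact conn_trans (hT t e1) (h1 x s hs t (lt_of_le_of_lt (le_max_left _ _) e2)
      (lt_of_le_of_lt (le_max_right _ _) e2))
  refine ⟨h, X.h0, fun g C => ?_⟩
  obtain ⟨T, hT⟩ := h2 g
  obtain ⟨N, hN⟩ := exists_nat_gt ((max T (max (C + R) (C + |θ g|))) / θ h)
  rw [div_lt_iff₀ X.h0] at hN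
  refine ⟨N, fun n hn => ?_⟩
  have hn' : (N : ℝ) ≤ n := by exact_mod_cast hn
  have hn2 := mul_le_mul_of_nonneg_right hn' X.h0.le
  set t : ℝ := n * θ h with ht
  have e1 : T < t := by have := le_max_left T (max (C + R) (C + |θ g|)); linarith
  have e2 : C + R < t := by
    have := le_max_right T (max (C + R) (C + |θ g|))
    have := le_max_left (C + R) (C + |θ g|); linarith
  have e3 : C + |θ g| < t := by
    have := le_max_right T (max (C + R) (C + |θ g|))
    have := le_max_right (C + R) (C + |θ g|); linarith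
  have p1 : Pt θ h 1 t = h ^ n := by
    unfold Pt
    rw [char_one X.hθ, sub_zero, ht, mul_div_cancel_right₀ _ X.h0.ne', Int.ceil_natCast, one_mul,
      zpow_natCast]
  have c1 : Conn S (fun y => C ≤ θ y) (h ^ n) (Pt θ h g t) := by
    rw [← p1]
    refine conn_mono (fun z hz => ?_) (hT t e1)
    unfold Band at hz
    rw [abs_le] at hz
    linarith [hz.1]
  have c2 : Conn S (fun y => C ≤ θ y) (Pt θ h g t) (g * h ^ (n : ℤ)) := by
    refine X.conn_ge g _ _ (conn_right (Q := fun z => C ≤ θ z) c1) ?_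
    rw [char_line X.hθ]
    have := neg_abs_le (θ g)
    push_cast
    linarith
  rw [zpow_natCast] at c2
  exact conn_trans c1 c2

theorem W5down (hdn : ∀ s ∈ S, ∀ t : ℝ, t ≤ 0 → t ≤ θ s →
    Cn S θ R t (Pt θ h 1 t) (Pt θ h s t)) : Up S (-θ) := by
  have h1 : ∀ y, ∀ s ∈ S, ∀ t : ℝ, t ≤ θ y → t ≤ θ (y * s) →
      Cn S θ R t (Pt θ h y t) (Pt θ h (y * s) t) := by
    intro y s hs t ht ht'
    rw [X.hθ] at ht'
    have h2 := cn_translate X.hθ y (hdn s hs (t - θ y) (by linarith) (by linarith))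
    rw [← X.P_translate, ← X.P_translate, sub_add_cancel, mul_one] at h2
    exact h2
  have h2 : ∀ g : Γ, ∃ T : ℝ, ∀ t, t < T → Cn S θ R t (Pt θ h 1 t) (Pt θ h g t) := by
    intro g
    refine gen_ind X.hS (P := fun g => ∃ T : ℝ, ∀ t, t < T →
      Cn S θ R t (Pt θ h 1 t) (Pt θ h g t)) 1 ⟨0, fun t _ => conn_refl (X.P_band 1 t)⟩ ?_ g
    rintro x ⟨T, hT⟩ s hs
    refine ⟨min T (min (θ x) (θ (x * s))), fun t ht => ?_⟩
    have e1 := lt_of_lt_of_le ht (min_le_left _ _)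
    have e2 := lt_of_lt_of_le ht (min_le_right _ _)
    exact conn_trans (hT t e1) (h1 x s hs t (lt_of_lt_of_le e2 (min_le_left _ _)).le
      (lt_of_lt_of_le e2 (min_le_right _ _)).le)
  refine ⟨h⁻¹, by
    show 0 < -θ h⁻¹
    rw [char_inv X.hθ, neg_neg]; exact X.h0, fun g C => ?_⟩
  obtain ⟨T, hT⟩ := h2 g
  obtain ⟨N, hN⟩ := exists_nat_gt ((max (-T) (max (C + R) (C + |θ g|))) / θ h)
  rw [div_lt_iff₀ X.h0] at hN
  refine ⟨N, fun n hn => ?_⟩
  have hn' : (N : ℝ) ≤ n := by exact_mod_cast hn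
  have hn2 := mul_le_mul_of_nonneg_right hn' X.h0.le
  set t : ℝ := -(n * θ h) with ht
  have e1 : t < T := by have := le_max_left (-T) (max (C + R) (C + |θ g|)); linarith
  have e2 : C + R < -t := by
    have := le_max_right (-T) (max (C + R) (C + |θ g|))
    have := le_max_left (C + R) (C + |θ g|); linarith
  have e3 : C + |θ g| < -t := by
    have := le_max_right (-T) (max (C + R) (C + |θ g|))
    have := le_max_right (C + R) (C + |θ g|); linarith
  have p1 : Pt θ h 1 t = h⁻¹ ^ n := by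
    unfold Pt
    rw [char_one X.hθ, sub_zero, ht, neg_div, mul_div_cancel_right₀ _ X.h0.ne',
      show -(n : ℝ) = ((-(n : ℤ) : ℤ) : ℝ) by push_cast; rfl, Int.ceil_intCast, one_mul,
      zpow_neg, zpow_natCast, inv_pow]
  have c1 : Conn S (fun y => C ≤ (-θ) y) (h⁻¹ ^ n) (Pt θ h g t) := by
    rw [← p1]
    refine conn_mono (fun z hz => ?_) (hT t e1)
    unfold Band at hz
    rw [abs_le] at hz
    show C ≤ -θ z
    linarith [hz.2]
  have c2 : Conn S (fun y => θ y ≤ -C) (Pt θ h g t) (g * h ^ (-(n : ℤ))) := by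
    refine X.conn_le g _ _ (by
      have := conn_right (Q := fun z => C ≤ (-θ) z) c1
      change C ≤ -θ _ at this
      unfold Pt at this
      linarith) ?_
    rw [char_line X.hθ]
    have := le_abs_self (θ g)
    push_cast
    linarith
  rw [zpow_neg, zpow_natCast, ← inv_pow] at c2
  exact conn_trans c1 (conn_mono (fun z hz => by
    show C ≤ -θ z
    linarith) c2)

theorem result : Up S θ ∨ Up S (-θ) := by
  by_cases hup : ∀ s ∈ S, ∀ t : ℝ, 0 < t → θ s < t → Cn S θ R t (Pt θ h 1 t) (Pt θ h s t)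
  · exact Or.inl (X.W5up hup)
  by_cases hdn : ∀ s ∈ S, ∀ t : ℝ, t ≤ 0 → t ≤ θ s → Cn S θ R t (Pt θ h 1 t) (Pt θ h s t)
  · exact Or.inr (X.W5down hdn)
  exfalso
  push Not at hup hdn
  obtain ⟨s, hs, t, ht, hst, hn⟩ := hup
  obtain ⟨s', hs', t', ht', hst', hn'⟩ := hdn
  have h1 := X.W4up hs ht hst hn
  have h2 := X.W4down hs' ht' hst' hn'
  linarith

end Ctx

/-- **M3: Theorem C of Bieri-Neumann-Strebel for amenable groups.** -/
theorem stmtC : StmtC := by
  intro Γ _ S N θ hF hS hFP hθ hne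
  classical
  obtain ⟨h, hh, h0⟩ : ∃ h ∈ S, 0 < θ h := by
    by_contra hcon
    push Not at hcon
    refine hne (funext fun y => ?_)
    refine gen_ind hS (P := fun y => θ y = 0) 1 (char_one hθ) (fun x hx s hs => ?_) y
    have h1 := hcon s hs
    have h2 := hcon s⁻¹ (hS.inv s hs)
    rw [char_inv hθ] at h2
    rw [hθ, hx]
    linarith
  obtain ⟨μ, m1, m2, m3, m4⟩ := exists_mean hF
  set ρ : ℝ := ∑ s ∈ S, |θ s| with hρ
  have hρs : Rho S θ ρ := ⟨Finset.sum_nonneg fun _ _ => abs_nonneg _, fun s hs =>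
    Finset.single_le_sum (f := fun s => |θ s|) (fun _ _ => abs_nonneg _) hs⟩
  have hN0 : (0 : ℝ) ≤ N := Nat.cast_nonneg _
  have hex := fun (t : ℝ) (p : Γ) (hp : Band θ (3 * (N + 1) * ρ) t p) =>
    exists_isH hS hFP hθ hρs le_rfl t hp
  have hex2 : ∀ (t : ℝ) (p : Γ), ∃ H : Set Γ, Band θ (3 * (N + 1) * ρ) t p →
      IsH S θ (3 * (N + 1) * ρ) t p H := by
    intro t p
    by_cases hp : Band θ (3 * (N + 1) * ρ) t p
    · obtain ⟨H, hH⟩ := hex t p hp
      exact ⟨H, fun _ => hH⟩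
    · exact ⟨∅, fun h1 => absurd h1 hp⟩
  choose Hf hHf using hex2
  exact Ctx.result (R := 3 * (N + 1) * ρ) (h := h)
    { hS := hS, hθ := hθ, hh := hh, h0 := h0
      hR := fun s hs => by
        have h1 := hρs.2 s hs
        have h2 := hρs.1
        nlinarith
      Hf := Hf, isH := hHf, μ := μ, mu_univ := m1, mu_nonneg := m2, mu_add := m3, mu_inv := m4 }

end Vale.Agent.P260.H66
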